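import Mathlib

/-!
# P192: periodic gluing between two cuts of the same shape

A group with relators of length at most `r` acts on a set `X`. Two nested finite sets whose
boundaries look alike up to radius `r` are glued periodically to an action on `W × ℤ` commuting
with the translation, where `W` is the difference of the sets. For a periodic group this is
impossible when the larger set is connected.
-/

namespace Vale.Agent.P192.Bottleneck

variable {m : ℕ} {G : Type*} [Group G] (π : FreeGroup (Fin m) →* G) {X : Type*} [MulAction G X]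

/-- The element given by a word. -/
def act (u : List (Fin m × Bool)) : G := π (FreeGroup.mk u)

@[simp] theorem act_nil : act π [] = 1 := by
  show π (FreeGroup.mk []) = 1
  rw [← FreeGroup.one_eq_mk, map_one]

theorem act_cons (a : Fin m × Bool) (u : List (Fin m × Bool)) :
    act π (a :: u) = act π [a] * act π u := by
  simp only [act, ← map_mul, FreeGroup.mul_mk, List.singleton_append]

theorem act_invRev (u : List (Fin m × Bool)) : act π (FreeGroup.invRev u) = (act π u)⁻¹ := by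
  simp only [act, ← map_inv, FreeGroup.inv_mk]

theorem act_flip (a : Fin m × Bool) : act π [(a.1, !a.2)] = (act π [a])⁻¹ := by
  rw [← act_invRev]
  rfl

/-- A boundary point of a set. -/
def Bd (F : Set X) (x : X) : Prop := x ∈ F ∧ ∃ a, act π [a] • x ∉ F

/-- Being at distance at most `r`. -/
def Near (r : ℕ) (x z : X) : Prop := ∃ u : List (Fin m × Bool), u.length ≤ r ∧ act π u • x = z

/-- The points near the boundary. -/
def U (r : ℕ) (F : Set X) : Set X := {z | ∃ b, Bd π F b ∧ Near π r b z}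

/-- The connected component of `x₀` in a set. -/
inductive Conn (P : Set X) (x₀ : X) : X → Prop
  | base : x₀ ∈ P → Conn P x₀ x₀
  | step (x : X) (a : Fin m × Bool) : x ∈ P → Conn P x₀ (act π [a] • x) → Conn P x₀ x

variable {π}

theorem Near.cons {r : ℕ} {x z : X} (h : Near π r x z) (a : Fin m × Bool) :
    Near π (r + 1) x (act π [a] • z) := by
  obtain ⟨u, hu, rfl⟩ := h
  exact ⟨a :: u, by simp [hu], by rw [act_cons, mul_smul]⟩

theorem Near.mono {r r' : ℕ} {x z : X} (h : Near π r x z) (hr : r ≤ r') : Near π r' x z := by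
  obtain ⟨u, hu, e⟩ := h
  exact ⟨u, hu.trans hr, e⟩

theorem Near.refl (r : ℕ) (x : X) : Near π r x x := ⟨[], by simp, by simp⟩

theorem Near.symm {r : ℕ} {x z : X} (h : Near π r x z) : Near π r z x := by
  obtain ⟨u, hu, rfl⟩ := h
  exact ⟨FreeGroup.invRev u, by simpa [FreeGroup.invRev] using hu, by simp [act_invRev]⟩

theorem Conn.mem {P : Set X} {x₀ x : X} (h : Conn π P x₀ x) : x ∈ P := by
  cases h <;> assumption

/-- A path entering a set passes its boundary. -/
theorem exists_bd_in {F : Set X} {w : X} (hw : w ∉ F) :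
    ∀ u : List (Fin m × Bool), act π u • w ∈ F →
      ∃ b, Bd π F b ∧ Near π (u.length - 1) b (act π u • w)
  | [], h => absurd (by simpa using h) hw
  | a :: v, h => by
    rw [act_cons, mul_smul] at h ⊢
    by_cases hv : act π v • w ∈ F
    · obtain ⟨b, hb, hn⟩ := exists_bd_in hw v hv
      have : 0 < v.length := by
        cases v with
        | nil => exact absurd (by simpa using hv) hw
        | cons c t => simp
      exact ⟨b, hb, (hn.cons a).mono (by simp only [List.length_cons]; omega)⟩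
    · refine ⟨_, ⟨h, (a.1, !a.2), ?_⟩, Near.refl _ _⟩
      rwa [act_flip, inv_smul_smul]

/-- A path leaving a set passes its boundary. -/
theorem exists_bd_out {F : Set X} {w : X} (hw : w ∈ F) :
    ∀ u : List (Fin m × Bool), act π u • w ∉ F →
      ∃ b, Bd π F b ∧ Near π u.length b (act π u • w)
  | [], h => absurd hw (by simpa using h)
  | a :: v, h => by
    rw [act_cons, mul_smul] at h ⊢
    by_cases hv : act π v • w ∈ F
    · exact ⟨_, ⟨hv, a, h⟩, ((Near.refl 0 _).cons a).mono (by simp)⟩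
    · obtain ⟨b, hb, hn⟩ := exists_bd_out hw v hv
      exact ⟨b, hb, hn.cons a⟩

/-- A translation of the window of `F` onto the window of `F'`. -/
structure Half (π : FreeGroup (Fin m) →* G) (r : ℕ) (F F' : Set X) (θ θ' : X → X) : Prop where
  maps : ∀ z ∈ U π r F, θ z ∈ U π r F'
  inv : ∀ z ∈ U π r F, θ' (θ z) = z
  mem : ∀ z ∈ U π r F, (z ∈ F ↔ θ z ∈ F')
  comm : ∀ z a, z ∈ U π r F → act π [a] • z ∈ U π r F → θ (act π [a] • z) = act π [a] • θ z

variable {r : ℕ} {F F' : Set X} {θ θ' : X → X}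

open Classical in
/-- The chart of the glued set at level `k`. -/
noncomputable def chart (F F' : Set X) (θ θ' : X → X) (k : ℤ) (z : X) : X × ℤ :=
  if z ∈ F then (θ z, k - 1) else if z ∈ F' then (z, k) else (θ' z, k + 1)

theorem chart_shift (k c : ℤ) (z : X) :
    chart F F' θ θ' (k + c) z = ((chart F F' θ θ' k z).1, (chart F F' θ θ' k z).2 + c) := by
  unfold chart
  split_ifs <;> refine Prod.ext rfl ?_ <;> simp <;> omega

variable (hθ : Half π r F F' θ θ') (hθ' : Half π r F' F θ' θ)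
  (hU : ∀ z ∈ U π r F', z ∉ F) (hU' : ∀ z ∈ U π r F, z ∈ F')

include hθ hU hU' in
theorem chart_down (k : ℤ) {q : X} (hq : q ∈ U π r F) :
    chart F F' θ θ' (k - 1) (θ q) = chart F F' θ θ' k q := by
  unfold chart
  have h1 : θ q ∉ F := hU _ (hθ.maps q hq)
  have h2 := hθ.mem q hq
  by_cases h : q ∈ F
  · rw [if_pos h, if_neg h1, if_pos (h2.mp h)]
  · rw [if_neg h, if_pos (hU' q hq), if_neg h1, if_neg (mt h2.mpr h), hθ.inv q hq]
    simp

include hθ' hU hU' in
theorem chart_up (k : ℤ) {q : X} (hq : q ∈ U π r F') :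
    chart F F' θ θ' (k + 1) (θ' q) = chart F F' θ θ' k q := by
  unfold chart
  have h1 : θ' q ∈ F' := hU' _ (hθ'.maps q hq)
  have h2 := hθ'.mem q hq
  rw [if_neg (hU q hq)]
  by_cases h : q ∈ F'
  · rw [if_pos h, if_pos (h2.mp h), hθ'.inv q hq]
    simp
  · rw [if_neg h, if_neg (mt h2.mpr h), if_pos h1]

include hθ hθ' hU hU' in
theorem chart_mem (k : ℤ) {z : X} (h1 : z ∈ F → z ∈ U π r F) (h2 : z ∉ F' → z ∈ U π r F') :
    (chart F F' θ θ' k z).1 ∈ F' ∧ (chart F F' θ θ' k z).1 ∉ F := by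
  unfold chart
  split_ifs with h h'
  · exact ⟨(hθ.mem z (h1 h)).mp h, hU _ (hθ.maps z (h1 h))⟩
  · exact ⟨h', h⟩
  · exact ⟨hU' _ (hθ'.maps z (h2 h')), mt (hθ'.mem z (h2 h')).mpr h'⟩

/-- The glued set. -/
abbrev Glued (F F' : Set X) : Type _ := {p : X × ℤ // p.1 ∈ F' ∧ p.1 ∉ F}

variable (π) in
/-- One step in the glued set. -/
noncomputable def step (F F' : Set X) (θ θ' : X → X) (a : Fin m × Bool) (p : X × ℤ) : X × ℤ :=
  chart F F' θ θ' p.2 (act π [a] • p.1)

variable (π) in
/-- A path in the glued set. -/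
noncomputable def run (F F' : Set X) (θ θ' : X → X) (u : List (Fin m × Bool)) (p : X × ℤ) : X × ℤ :=
  u.foldr (step π F F' θ θ') p

include hθ hθ' hU hU' in
theorem step_chart (k : ℤ) (a : Fin m × Bool) {w : X} (hw : w ∈ F' ∧ w ∉ F)
    {v : List (Fin m × Bool)} (hv : v.length + 1 ≤ r) :
    step π F F' θ θ' a (chart F F' θ θ' k (act π v • w)) =
      chart F F' θ θ' k (act π (a :: v) • w) := by
  rw [act_cons, mul_smul]
  generalize hz : act π v • w = z
  by_cases h : z ∈ F
  · obtain ⟨b, hb, hn⟩ := exists_bd_in hw.2 v (hz.symm ▸ h)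
    rw [hz] at hn
    have q1 : z ∈ U π r F := ⟨b, hb, hn.mono (by omega)⟩
    have q2 : act π [a] • z ∈ U π r F := ⟨b, hb, (hn.cons a).mono (by omega)⟩
    have : chart F F' θ θ' k z = (θ z, k - 1) := by unfold chart; rw [if_pos h]
    rw [this, step, ← hθ.comm z a q1 q2]
    exact chart_down hθ hU hU' k q2
  by_cases h' : z ∈ F'
  · have : chart F F' θ θ' k z = (z, k) := by unfold chart; rw [if_neg h, if_pos h']
    rw [this, step]
  · obtain ⟨b, hb, hn⟩ := exists_bd_out hw.1 v (hz.symm ▸ h')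
    rw [hz] at hn
    have q1 : z ∈ U π r F' := ⟨b, hb, hn.mono (by omega)⟩
    have q2 : act π [a] • z ∈ U π r F' := ⟨b, hb, (hn.cons a).mono (by omega)⟩
    have : chart F F' θ θ' k z = (θ' z, k + 1) := by
      unfold chart; rw [if_neg h, if_neg h']
    rw [this, step, ← hθ'.comm z a q1 q2]
    exact chart_up hθ' hU hU' k q2

include hθ hθ' hU hU' in
theorem run_eq (k : ℤ) {w : X} (hw : w ∈ F' ∧ w ∉ F) :
    ∀ u : List (Fin m × Bool), u.length ≤ r →
      run π F F' θ θ' u (w, k) = chart F F' θ θ' k (act π u • w)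
  | [], _ => by simp [run, chart, hw.1, hw.2]
  | a :: v, hu => by
    have hu' : v.length + 1 ≤ r := hu
    show step π F F' θ θ' a (run π F F' θ θ' v (w, k)) = _
    rw [run_eq k hw v (by omega), step_chart hθ hθ' hU hU' k a hw hu']

include hθ hθ' hU hU' in
theorem step_mem (hr : 1 ≤ r) (a : Fin m × Bool) {p : X × ℤ} (hp : p.1 ∈ F' ∧ p.1 ∉ F) :
    (step π F F' θ θ' a p).1 ∈ F' ∧ (step π F F' θ θ' a p).1 ∉ F := by
  refine chart_mem hθ hθ' hU hU' _ (fun h => ?_) (fun h => ?_)
  · obtain ⟨b, hb, hn⟩ := exists_bd_in hp.2 [a] h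
    exact ⟨b, hb, hn.mono (by simp)⟩
  · obtain ⟨b, hb, hn⟩ := exists_bd_out hp.1 [a] h
    exact ⟨b, hb, hn.mono (by simpa using hr)⟩

theorem run_shift (u : List (Fin m × Bool)) (p : X × ℤ) (c : ℤ) :
    run π F F' θ θ' u (p.1, p.2 + c) =
      ((run π F F' θ θ' u p).1, (run π F F' θ θ' u p).2 + c) := by
  induction u with
  | nil => rfl
  | cons a v ih =>
    show step π F F' θ θ' a (run π F F' θ θ' v (p.1, p.2 + c)) = _
    rw [ih]
    exact chart_shift _ c _

/-- The letters of a generator and of its inverse cancel. -/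
theorem act_pair (i : Fin m) (b : Bool) : act π [(i, b), (i, !b)] = 1 := by
  rw [act_cons, show [(i, !b)] = [((i, b).1, !(i, b).2)] from rfl, act_flip, mul_inv_cancel]

include hθ hθ' hU hU' in
theorem step_step (hr : 2 ≤ r) (i : Fin m) (b : Bool) {p : X × ℤ}
    (hp : p.1 ∈ F' ∧ p.1 ∉ F) :
    step π F F' θ θ' (i, b) (step π F F' θ θ' (i, !b) p) = p := by
  have := run_eq hθ hθ' hU hU' p.2 hp [(i, b), (i, !b)] (by simpa using hr)
  rw [act_pair, one_smul] at this
  simp only [run, List.foldr_cons, List.foldr_nil] at this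
  rw [this, chart, if_neg hp.2, if_pos hp.1]

/-- The permutation of the glued set given by a generator. -/
noncomputable def genPerm (hr : 2 ≤ r) (i : Fin m) : Equiv.Perm (Glued F F') where
  toFun p := ⟨step π F F' θ θ' (i, true) p.1,
    step_mem hθ hθ' hU hU' (le_trans one_le_two hr) _ p.2⟩
  invFun p := ⟨step π F F' θ θ' (i, false) p.1,
    step_mem hθ hθ' hU hU' (le_trans one_le_two hr) _ p.2⟩
  left_inv p := Subtype.ext (step_step hθ hθ' hU hU' hr i false p.2)
  right_inv p := Subtype.ext (step_step hθ hθ' hU hU' hr i true p.2)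

theorem lift_mk_apply (hr : 2 ≤ r) (u : List (Fin m × Bool)) (p : Glued F F') :
    (FreeGroup.lift (genPerm hθ hθ' hU hU' hr) (FreeGroup.mk u) p).1 =
      run π F F' θ θ' u p.1 := by
  induction u with
  | nil => simp [run, ← FreeGroup.one_eq_mk]
  | cons a v ih =>
    rw [← List.singleton_append, ← FreeGroup.mul_mk, map_mul, Equiv.Perm.mul_apply]
    show _ = step π F F' θ θ' a (run π F F' θ θ' v p.1)
    rw [← ih]
    obtain ⟨i, b⟩ := a
    cases b <;> simp [FreeGroup.lift_mk] <;> rfl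

include hθ hθ' hU hU' in
/-- Periodic gluing is impossible for a periodic group. -/
theorem glue_false (ht : IsMulTorsion G) {R : Set (FreeGroup (Fin m))}
    (hR : Subgroup.normalClosure R = π.ker) (hlen : ∀ x ∈ R, x.toWord.length ≤ r) (hr : 2 ≤ r)
    (hUfin : (U π r F).Finite) {x₀ : X} (hx₀ : x₀ ∈ F) (hconn : ∀ x ∈ F', Conn π F' x₀ x)
    {w₀ : X} (hw₀ : w₀ ∈ F' ∧ w₀ ∉ F) : False := by
  set Ψ := FreeGroup.lift (genPerm hθ hθ' hU hU' hr) with hΨ
  have hrel : π.ker ≤ Ψ.ker := by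
    rw [← hR]
    refine Subgroup.normalClosure_le_normal fun x hx => ?_
    rw [SetLike.mem_coe, MonoidHom.mem_ker]
    refine Equiv.ext fun p => Subtype.ext ?_
    have h1 : act π x.toWord = 1 := by
      have : x ∈ π.ker := hR ▸ Subgroup.subset_normalClosure hx
      simpa [act, FreeGroup.mk_toWord] using this
    have h2 := run_eq hθ hθ' hU hU' p.1.2 p.2 x.toWord (hlen x hx)
    rw [h1, one_smul, chart, if_neg p.2.2, if_pos p.2.1] at h2
    conv_lhs => rw [← FreeGroup.mk_toWord (x := x)]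
    rw [hΨ, lift_mk_apply, h2]
    rfl
  have shift : ∀ x (p q : Glued F F') (c : ℤ), q.1 = (p.1.1, p.1.2 + c) →
      (Ψ x q).1 = ((Ψ x p).1.1, (Ψ x p).1.2 + c) := by
    intro x p q c hq
    conv_lhs => rw [← FreeGroup.mk_toWord (x := x)]
    conv_rhs => rw [← FreeGroup.mk_toWord (x := x)]
    rw [hΨ, lift_mk_apply, lift_mk_apply, hq, run_shift]
  have no_climb : ∀ x (p : Glued F F'), (Ψ x p).1.1 = p.1.1 → (Ψ x p).1.2 = p.1.2 := by
    intro x p hx
    obtain ⟨n, hn, hpow⟩ := (ht (π x)).exists_pow_eq_one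
    have hk : Ψ x ^ n = 1 := by
      rw [← map_pow]
      exact hrel (by rw [MonoidHom.mem_ker, map_pow, hpow])
    have key : ∀ j : ℕ, ((Ψ x ^ j) p).1 = (p.1.1, p.1.2 + j * ((Ψ x p).1.2 - p.1.2)) := by
      intro j
      induction j with
      | zero => simp
      | succ j ih =>
        rw [pow_succ', Equiv.Perm.mul_apply, shift x p _ _ ih, hx]
        refine Prod.ext rfl ?_
        push_cast
        ring
    have := congrArg Prod.snd (key n)
    rw [hk] at this
    simp only [Equiv.Perm.coe_one, id_eq] at this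
    have hn' : (n : ℤ) ≠ 0 := by exact_mod_cast hn.ne'
    have : (n : ℤ) * ((Ψ x p).1.2 - p.1.2) = 0 := by linarith
    rcases mul_eq_zero.mp this with h | h
    · exact absurd h hn'
    · linarith
  have down : ∀ p : Glued F F',
      ∃ x, (Ψ x p).1.2 = p.1.2 - 1 ∧ (Ψ x p).1.1 ∈ θ '' U π r F := by
    rintro ⟨⟨w, k⟩, hw⟩
    simp only
    have h := hconn w hw.1
    induction h with
    | base => exact absurd hx₀ hw.2
    | step y a hy hc ih =>
      obtain ⟨c, hc'⟩ : ∃ c, (Ψ (FreeGroup.mk [a]) ⟨(y, k), hw⟩).1 = c := ⟨_, rfl⟩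
      have e : c = chart F F' θ θ' k (act π [a] • y) := by
        rw [← hc', hΨ, lift_mk_apply]
        rfl
      by_cases hF : act π [a] • y ∈ F
      · obtain ⟨b, hb, hn⟩ := exists_bd_in hw.2 [a] hF
        exact ⟨FreeGroup.mk [a], by rw [hc', e, chart, if_pos hF],
          by rw [hc', e, chart, if_pos hF]; exact ⟨_, ⟨b, hb, hn.mono (by simp)⟩, rfl⟩⟩
      · obtain ⟨x, hx⟩ := ih ⟨hc.mem, hF⟩
        refine ⟨x * FreeGroup.mk [a], ?_⟩
        rw [map_mul, Equiv.Perm.mul_apply]
        have : Ψ (FreeGroup.mk [a]) ⟨(y, k), hw⟩ = ⟨(act π [a] • y, k), ⟨hc.mem, hF⟩⟩ :=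
          Subtype.ext (by rw [hc', e, chart, if_neg hF, if_pos hc.mem])
        rw [this]
        exact hx
  have orbit : ∀ n : ℕ, ∃ x, (Ψ x ⟨(w₀, 0), hw₀⟩).1.2 = -(n : ℤ) - 1 ∧
      (Ψ x ⟨(w₀, 0), hw₀⟩).1.1 ∈ θ '' U π r F := by
    intro n
    induction n with
    | zero =>
      obtain ⟨y, hy, hy'⟩ := down ⟨(w₀, 0), hw₀⟩
      exact ⟨y, by rw [hy]; simp, hy'⟩
    | succ n ih =>
      obtain ⟨x, hx, -⟩ := ih
      obtain ⟨y, hy, hy'⟩ := down (Ψ x ⟨(w₀, 0), hw₀⟩)
      refine ⟨y * x, ?_, ?_⟩ <;> rw [map_mul, Equiv.Perm.mul_apply]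
      · rw [hy, hx]
        push_cast
        ring
      · exact hy'
  choose x hx hxZ using orbit
  have : Finite (θ '' U π r F) := (hUfin.image θ).to_subtype
  obtain ⟨i, j, hij, he⟩ := Finite.exists_ne_map_eq_of_infinite
    fun n => (⟨(Ψ (x n) ⟨(w₀, 0), hw₀⟩).1.1, hxZ n⟩ : θ '' U π r F)
  have he' : (Ψ (x i) ⟨(w₀, 0), hw₀⟩).1.1 = (Ψ (x j) ⟨(w₀, 0), hw₀⟩).1.1 :=
    congrArg Subtype.val he
  have := no_climb (x j * (x i)⁻¹) (Ψ (x i) ⟨(w₀, 0), hw₀⟩)
  rw [← Equiv.Perm.mul_apply, ← map_mul, inv_mul_cancel_right, hx, hx] at this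
  exact hij (by have := this he'.symm; omega)

end Vale.Agent.P192.Bottleneck
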