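import Vale.Agent.P192.Bottleneck.Types

/-!
# P192: finitely presented periodic groups have no bottlenecks

A finitely presented periodic group has no infinite Schreier graph exhausted by finite sets with
boundaries of bounded size; all its actions on the integers by bounded displacements have finite
image.
-/

namespace Vale.Agent.P192.Bottleneck

variable {m : ℕ} {G : Type*} [Group G] {π : FreeGroup (Fin m) →* G} {X : Type*} [MulAction G X]

theorem exists_relators (G : Type*) [Group G] [h : Group.IsFinitelyPresented G] :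
    ∃ (m r : ℕ) (π : FreeGroup (Fin m) →* G) (R : Set (FreeGroup (Fin m))),
      Function.Surjective π ∧ Subgroup.normalClosure R = π.ker ∧
        (∀ x ∈ R, x.toWord.length ≤ r) ∧ 2 ≤ r := by
  obtain ⟨m, π, hπ, R, hfin, hR⟩ := h.out
  obtain ⟨r, hr⟩ := (hfin.image fun x => x.toWord.length).bddAbove
  exact ⟨m, r + 2, π, R, hπ, hR, fun x hx => (hr ⟨x, hx, rfl⟩).trans (by omega), by omega⟩

theorem Conn.mono {P Q : Set X} (h : P ⊆ Q) {x₀ x : X} (hc : Conn π P x₀ x) :
    Conn π Q x₀ x := by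
  induction hc with
  | base hx => exact .base (h hx)
  | step x a hx _ ih => exact .step x a (h hx) ih

theorem Conn.self {P : Set X} {x₀ x : X} (hc : Conn π P x₀ x) :
    Conn π {y | Conn π P x₀ y} x₀ x := by
  induction hc with
  | base hx => exact Conn.base (Conn.base hx)
  | step x a hx hc ih => exact Conn.step x a (Conn.step x a hx hc) ih

theorem Conn.extend {P : Set X} {x₀ x : X} (hc : Conn π P x₀ x) (a : Fin m × Bool)
    (h : act π [a] • x ∈ P) : Conn π P x₀ (act π [a] • x) := by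
  refine .step _ (a.1, !a.2) h ?_
  rwa [act_flip, inv_smul_smul]

/-- A set closed under the letters contains the orbits of its points. -/
theorem smul_mem_of_closed (hπ : Function.Surjective π) {F : Set X}
    (h : ∀ x ∈ F, ∀ a, act π [a] • x ∈ F) {x : X} (hx : x ∈ F) (g : G) : g • x ∈ F := by
  obtain ⟨t, rfl⟩ := hπ g
  rw [← FreeGroup.mk_toWord (x := t)]
  induction t.toWord with
  | nil => simpa [← FreeGroup.one_eq_mk] using hx
  | cons a v ih =>
    show act π (a :: v) • x ∈ F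
    rw [act_cons, mul_smul]
    exact h _ ih a

/-- The points from which a word leads to another point. -/
theorem conn_trail {x₀ : X} (u : List (Fin m × Bool)) {y : X} :
    ∀ {P : Set X}, Conn π P x₀ y → (∀ v, v <:+ u → act π v • y ∈ P) →
      Conn π P x₀ (act π u • y) := by
  intro P hy
  induction u with
  | nil => exact fun _ => by simpa using hy
  | cons a v ih =>
    intro h
    have h1 := h (a :: v) List.suffix_rfl
    rw [act_cons, mul_smul] at h1 ⊢
    exact (ih fun t ht => h t (ht.trans (List.suffix_cons a v))).extend a h1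

/-- Every element crosses boundaries only near the boundary for the letters in `S`. -/
def Tame.{u, v} {G : Type v} [Group G] (S : Finset G) (g : G) : Prop :=
  ∃ T : Finset G, ∀ (X : Type u) [MulAction G X] (F : Set X) (x : X), x ∈ F → g • x ∉ F →
    ∃ t ∈ T, ∃ b, (b ∈ F ∧ ∃ s ∈ S, s • b ∉ F ∨ s⁻¹ • b ∉ F) ∧ x = t • b

universe u

theorem tame_all {S : Finset G} (hS : Subgroup.closure (S : Set G) = ⊤) (g : G) :
    Tame.{u} S g := by
  classical
  suffices h : Tame.{u} S g ∧ Tame.{u} S g⁻¹ from h.1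
  refine Subgroup.closure_induction (p := fun g _ => Tame.{u} S g ∧ Tame.{u} S g⁻¹)
    ?_ ?_ ?_ ?_ (hS ▸ Subgroup.mem_top g)
  · intro s hs
    exact ⟨⟨{1}, fun X _ F x hx hsx => ⟨1, by simp, x, ⟨hx, s, hs, Or.inl hsx⟩, by simp⟩⟩,
      ⟨{1}, fun X _ F x hx hsx => ⟨1, by simp, x, ⟨hx, s, hs, Or.inr hsx⟩, by simp⟩⟩⟩
  · exact ⟨⟨∅, fun X _ F x hx h => absurd (by simpa using hx) h⟩,
      ⟨∅, fun X _ F x hx h => absurd (by simpa using hx) h⟩⟩
  · have key : ∀ g h : G, Tame.{u} S g → Tame.{u} S h → Tame.{u} S (g * h) := by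
      rintro g h ⟨Tg, hg⟩ ⟨Th, hh⟩
      refine ⟨Th ∪ Tg.image (h⁻¹ * ·), fun X _ F x hx hgx => ?_⟩
      by_cases hhx : h • x ∈ F
      · obtain ⟨t, ht, b, hb, e⟩ := hg X F _ hhx (by rwa [← mul_smul])
        refine ⟨h⁻¹ * t, Finset.mem_union_right _ (Finset.mem_image_of_mem _ ht), b, hb, ?_⟩
        rw [mul_smul, ← e, inv_smul_smul]
      · obtain ⟨t, ht, rest⟩ := hh X F x hx hhx
        exact ⟨t, Finset.mem_union_left _ ht, rest⟩
    rintro g h - - ⟨hg, hg'⟩ ⟨hh, hh'⟩
    exact ⟨key g h hg hh, by rw [mul_inv_rev]; exact key _ _ hh' hg'⟩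
  · rintro g - ⟨hg, hg'⟩
    exact ⟨hg', by rwa [inv_inv]⟩

/-- The boundary for the letters is bounded by the boundary for `S`. -/
theorem exists_bd_bound {S : Finset G} (hS : Subgroup.closure (S : Set G) = ⊤) :
    ∃ c, ∀ (X : Type u) [MulAction G X] (F : Set X),
      {x | x ∈ F ∧ ∃ s ∈ S, s • x ∉ F ∨ s⁻¹ • x ∉ F}.Finite → {x | Bd π F x}.Finite ∧
        {x | Bd π F x}.ncard ≤
          c * {x | x ∈ F ∧ ∃ s ∈ S, s • x ∉ F ∨ s⁻¹ • x ∉ F}.ncard := by
  classical
  choose T hT using fun a => tame_all.{u} hS (act π [a])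
  refine ⟨((Finset.univ : Finset (Fin m × Bool)).biUnion T).card, fun X _ F hB => ?_⟩
  set T' := (Finset.univ : Finset (Fin m × Bool)).biUnion T
  set B := {x | x ∈ F ∧ ∃ s ∈ S, s • x ∉ F ∨ s⁻¹ • x ∉ F}
  have hp := T'.finite_toSet.prod hB
  have hsub : {x | Bd π F x} ⊆ (fun p : G × X => p.1 • p.2) '' ((T' : Set G) ×ˢ B) := by
    rintro x ⟨hx, a, ha⟩
    obtain ⟨t, ht, b, hb, rfl⟩ := hT a X F x hx ha
    exact ⟨(t, b), ⟨Finset.mem_biUnion.mpr ⟨a, Finset.mem_univ _, ht⟩, hb⟩, rfl⟩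
  refine ⟨(hp.image _).subset hsub, ?_⟩
  calc _ ≤ _ := Set.ncard_le_ncard hsub (hp.image _)
    _ ≤ _ := Set.ncard_image_le hp
    _ = T'.card * B.ncard := by rw [Set.ncard_prod, Set.ncard_coe_finset]

/-- No infinite Schreier graph of a finitely presented periodic group has an exhaustion by
finite sets with boundaries of bounded size. -/
theorem no_bottleneck [Group.IsFinitelyPresented G] (ht : IsMulTorsion G)
    [MulAction.IsPretransitive G X] [Infinite X] {S : Finset G}
    (hS : Subgroup.closure (S : Set G) = ⊤) (w : ℕ) :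
    ∃ B : Set X, B.Finite ∧ ∀ F : Set X, F.Finite → B ⊆ F →
      w < {x | x ∈ F ∧ ∃ s ∈ S, s • x ∉ F ∨ s⁻¹ • x ∉ F}.ncard := by
  classical
  obtain ⟨m, r, π, R, hπ, hR, hlen, hr⟩ := exists_relators G
  obtain ⟨c, hc⟩ := exists_bd_bound (π := π) hS
  by_contra hcon
  push Not at hcon
  obtain ⟨x₀⟩ : Nonempty X := inferInstance
  have next_ : ∀ B : Finset X, ∃ C : Finset X, (∀ b ∈ B, b ∈ C) ∧ x₀ ∈ C ∧
      (∀ x ∈ C, Conn π (C : Set X) x₀ x) ∧ {x | Bd π (C : Set X) x}.ncard ≤ c * w := by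
    intro B
    have hw : ∀ b : X, ∃ u : List (Fin m × Bool), act π u • x₀ = b := fun b => by
      obtain ⟨g, hg⟩ := MulAction.exists_smul_eq G x₀ b
      obtain ⟨t, rfl⟩ := hπ g
      exact ⟨t.toWord, by simp [act, FreeGroup.mk_toWord, hg]⟩
    choose u hu using hw
    let B' : Set X := insert x₀ (⋃ b ∈ B, (fun v => act π v • x₀) '' {v | v <:+ u b})
    have hB' : B'.Finite := by
      refine Set.Finite.insert _ (Set.Finite.biUnion B.finite_toSet fun b _ => Set.Finite.image _ ?_)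
      exact (u b).tails.toFinset.finite_toSet.subset fun v hv => by simpa using hv
    obtain ⟨F, hF, hBF, hFw⟩ := hcon B' hB'
    have hC : {y | Conn π F x₀ y}.Finite := hF.subset fun y hy => hy.mem
    refine ⟨hC.toFinset, fun b hb => ?_, ?_, ?_, ?_⟩
    · rw [Set.Finite.mem_toFinset, Set.mem_ofPred_eq, ← hu b]
      exact conn_trail _ (.base (hBF (Set.mem_insert _ _))) fun v hv =>
        hBF (Set.mem_insert_of_mem _ (Set.mem_biUnion hb ⟨v, hv, rfl⟩))
    · rw [Set.Finite.mem_toFinset]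
      exact .base (hBF (Set.mem_insert _ _))
    · intro x hx
      rw [Set.Finite.mem_toFinset] at hx
      rw [Set.Finite.coe_toFinset]
      exact Conn.self hx
    · rw [Set.Finite.coe_toFinset]
      refine le_trans (Set.ncard_le_ncard ?_ (hF.subset fun x hx => hx.1))
        ((hc X F (hF.subset fun x hx => hx.1)).2.trans (Nat.mul_le_mul_left _ hFw))
      rintro x ⟨hx, a, ha⟩
      exact ⟨hx.mem, a, fun h => ha (Conn.extend hx a h)⟩
  choose nx h1 h2 h3 h4 using next_
  have hw := fun k : ℕ => (List.finite_length_le (Fin m × Bool) k)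
  let nb : Finset X → Finset X := fun C =>
    C.biUnion fun y => (hw (r + 1)).toFinset.image fun u => act π u • y
  let C : ℕ → Finset X := fun n => Nat.rec (nx ∅) (fun _ P => nx (nb P)) n
  have hC : ∀ n, C n = nx (if n = 0 then ∅ else nb (C (n - 1))) := fun n => by cases n <;> rfl
  have hgap : ∀ n, ∀ y ∈ C n, ∀ z, Near π (r + 1) y z → z ∈ C (n + 1) := by
    rintro n y hy z ⟨u, hu, rfl⟩
    refine h1 (nb (C n)) _ (Finset.mem_biUnion.mpr ⟨y, hy, Finset.mem_image.mpr ⟨u, ?_, rfl⟩⟩)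
    simpa using hu
  let Cs : ℕ → Set X := fun n => SetLike.coe (C n)
  have e2 : ∀ n, x₀ ∈ (Cs n) := by
    intro n
    show x₀ ∈ C n
    rw [hC]
    exact h2 _
  have e3 : ∀ n, ∀ x ∈ (Cs n), Conn π (Cs n) x₀ x := by
    intro n
    show ∀ x ∈ C n, Conn π (SetLike.coe (C n)) x₀ x
    rw [hC]
    exact h3 _
  have e4 : ∀ n, {x | Bd π (Cs n) x}.ncard ≤ c * w := by
    intro n
    show {x | Bd π (SetLike.coe (C n)) x}.ncard ≤ c * w
    rw [hC]
    exact h4 _
  refine no_chain (w := c * w) ht hR hlen hr (Nat.lt_succ_self _) Cs x₀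
    (fun n _ => (C n).finite_toSet.subset fun x hx => hx.1) (fun n _ => e2 n) (fun n _ => e3 n) (fun n _ => e4 n)
    (fun n _ => hgap n) (fun n _ heq => ?_)
  have hinv : ∀ x ∈ Cs n, ∀ a, act π [a] • x ∈ Cs n := fun x hx a => by
    rw [← heq]
    exact hgap n x hx _ ⟨[a], by simp, rfl⟩
  have hall : (Set.univ : Set X) ⊆ Cs n := fun x _ => by
    obtain ⟨g, rfl⟩ := MulAction.exists_smul_eq G x₀ x
    exact smul_mem_of_closed hπ hinv (e2 n) g
  exact Set.infinite_univ ((C n).finite_toSet.subset hall)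

/-- A word moves the sets of a chain forward by a bounded number of steps. -/
theorem exists_reach {S : Finset G} (hS : Subgroup.closure (S : Set G) = ⊤) (g : G) :
    ∃ l : ℕ, ∀ (X : Type u) [MulAction G X] (F : ℕ → Set X) (N : ℕ),
      (∀ n < N, ∀ x ∈ F n, x ∈ F (n + 1) ∧
        ∀ s ∈ S, s • x ∈ F (n + 1) ∧ s⁻¹ • x ∈ F (n + 1)) →
      ∀ n, n + l ≤ N → ∀ x ∈ F n, g • x ∈ F (n + l) ∧ g⁻¹ • x ∈ F (n + l) := by
  refine Subgroup.closure_induction (p := fun g _ => ∃ l : ℕ,
    ∀ (X : Type u) [MulAction G X] (F : ℕ → Set X) (N : ℕ),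
      (∀ n < N, ∀ x ∈ F n, x ∈ F (n + 1) ∧
        ∀ s ∈ S, s • x ∈ F (n + 1) ∧ s⁻¹ • x ∈ F (n + 1)) →
      ∀ n, n + l ≤ N → ∀ x ∈ F n, g • x ∈ F (n + l) ∧ g⁻¹ • x ∈ F (n + l))
    ?_ ?_ ?_ ?_ (hS ▸ Subgroup.mem_top g)
  · intro s hs
    exact ⟨1, fun X _ F N hF n hn x hx => (hF n (by omega) x hx).2 s hs⟩
  · exact ⟨0, fun X _ F N hF n hn x hx => by simpa using hx⟩
  · rintro g h - - ⟨a, ha⟩ ⟨b, hb⟩
    refine ⟨a + b, fun X _ F N hF n hn x hx => ⟨?_, ?_⟩⟩
    · rw [mul_smul, show n + (a + b) = n + b + a by omega]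
      exact (ha X F N hF (n + b) (by omega) _ (hb X F N hF n (by omega) x hx).1).1
    · rw [mul_inv_rev, mul_smul, show n + (a + b) = n + a + b by omega]
      exact (hb X F N hF (n + a) (by omega) _ (ha X F N hF n (by omega) x hx).2).2
  · rintro g - ⟨a, ha⟩
    exact ⟨a, fun X _ F N hF n hn x hx => ⟨(ha X F N hF n hn x hx).2,
      by rw [inv_inv]; exact (ha X F N hF n hn x hx).1⟩⟩

/-- Nests of sets with bounded boundaries and positive gaps have bounded depth, uniformly in
the transitive action. -/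
theorem no_nest [Group.IsFinitelyPresented G] (ht : IsMulTorsion G) {S : Finset G}
    (hS : Subgroup.closure (S : Set G) = ⊤) (w : ℕ) :
    ∃ N : ℕ, ∀ (X : Type u) [MulAction G X] [MulAction.IsPretransitive G X] (F : ℕ → Set X),
      (F 0).Nonempty →
      (∀ n ≤ N, {x | x ∈ F n ∧ ∃ s ∈ S, s • x ∉ F n ∨ s⁻¹ • x ∉ F n}.Finite ∧
        {x | x ∈ F n ∧ ∃ s ∈ S, s • x ∉ F n ∨ s⁻¹ • x ∉ F n}.ncard ≤ w) →
      (∀ n < N, ∀ x ∈ F n, x ∈ F (n + 1) ∧
        ∀ s ∈ S, s • x ∈ F (n + 1) ∧ s⁻¹ • x ∈ F (n + 1)) →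
      F N = Set.univ := by
  classical
  obtain ⟨m, r, π, R, hπ, hR, hlen, hr⟩ := exists_relators G
  obtain ⟨c, hc⟩ := exists_bd_bound.{u} (π := π) hS
  choose l hl using fun a => exists_reach.{u} hS (act π [a])
  set L := (Finset.univ : Finset (Fin m × Bool)).sup l with hL
  set K := Nat.card (Shape m ((c * w) * wordCount m r)) + 1 with hK
  refine ⟨K * ((r + 1) * L), fun X _ _ F h0 hb hgap => ?_⟩
  set N := K * ((r + 1) * L) with hN
  by_contra hne
  obtain ⟨x₀, hx₀⟩ := h0
  have mono : ∀ a b, a ≤ b → b ≤ N → F a ⊆ F b := by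
    intro a b hab
    induction hab with
    | refl => exact fun _ => subset_rfl
    | @step b hab ih => exact fun hb x hx => (hgap b (by omega) x (ih (by omega) hx)).1
  have stepL : ∀ a n, n + L ≤ N → ∀ x ∈ F n, act π [a] • x ∈ F (n + L) := by
    intro a n hn x hx
    have hla : l a ≤ L := Finset.le_sup (Finset.mem_univ a)
    exact mono _ _ (by omega) hn (hl a X F N hgap n (by omega) x hx).1
  have walk : ∀ (u : List (Fin m × Bool)) n, n + u.length * L ≤ N → ∀ x ∈ F n,
      act π u • x ∈ F (n + u.length * L) := by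
    intro u
    induction u with
    | nil => intro n _ x hx; simpa using hx
    | cons a v ih =>
      intro n hn x hx
      rw [List.length_cons, Nat.add_one_mul, ← Nat.add_assoc] at hn ⊢
      rw [act_cons, mul_smul]
      exact stepL a _ hn _ (ih n (by omega) x hx)
  let D := (r + 1) * L
  let E : ℕ → Set X := fun n => {y | Conn π (F (n * D)) x₀ y}
  have hle : ∀ n, n ≤ K → n * D ≤ N := fun n hn => Nat.mul_le_mul_right _ hn
  have hbase : ∀ n, n ≤ K → x₀ ∈ F (n * D) := fun n hn =>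
    mono 0 _ (Nat.zero_le _) (hle n hn) hx₀
  have hgapE : ∀ n, n + 1 ≤ K → ∀ y ∈ E n, ∀ z, Near π (r + 1) y z → z ∈ E (n + 1) := by
    rintro n hn y hy z ⟨u, hu, rfl⟩
    have e : (n + 1) * D = n * D + (r + 1) * L := Nat.add_one_mul _ _
    have hle' := hle _ hn
    refine conn_trail u (hy.mono (mono _ _ (by omega) hle')) fun v hv => ?_
    have hvl : v.length * L ≤ (r + 1) * L := Nat.mul_le_mul_right _ (hv.length_le.trans hu)
    exact mono _ _ (by omega) hle' (walk v (n * D) (by omega) y hy.mem)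
  have hbdE : ∀ n, n ≤ K → {x | Bd π (E n) x}.Finite ∧ {x | Bd π (E n) x}.ncard ≤ c * w := by
    intro n hn
    obtain ⟨h1, h2⟩ := hc X (F (n * D)) (hb _ (hle n hn)).1
    have hsub : {x | Bd π (E n) x} ⊆ {x | Bd π (F (n * D)) x} := by
      rintro x ⟨hx, a, ha⟩
      exact ⟨hx.mem, a, fun h => ha (Conn.extend hx a h)⟩
    exact ⟨h1.subset hsub, (Set.ncard_le_ncard hsub h1).trans
      (h2.trans (Nat.mul_le_mul_left _ (hb _ (hle n hn)).2))⟩
  refine no_chain (w := c * w) ht hR hlen hr (Nat.lt_succ_self _) E x₀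
    (fun n hn => (hbdE n hn.le).1) (fun n hn => Conn.base (hbase n hn.le))
    (fun n _ x hx => Conn.self hx) (fun n hn => (hbdE n hn.le).2)
    (fun n hn => hgapE n hn.le) (fun n hn heq => hne (Set.eq_univ_of_forall fun x => ?_))
  have hinv : ∀ x ∈ E n, ∀ a, act π [a] • x ∈ E n := fun x hx a => by
    rw [← heq]
    exact hgapE n hn.le x hx _ ⟨[a], by simp, rfl⟩
  obtain ⟨g, rfl⟩ := MulAction.exists_smul_eq G x₀ x
  exact mono _ _ (hle n (by omega)) le_rfl
    (smul_mem_of_closed hπ hinv (Conn.base (hbase n (by omega))) g).mem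

theorem abs_smul_le [MulAction G ℤ] {C : ℕ}
    (hC : ∀ (a : Fin m × Bool) (x : ℤ), |act π [a] • x - x| ≤ C) (u : List (Fin m × Bool))
    (x : ℤ) : |act π u • x - x| ≤ u.length * C := by
  induction u with
  | nil => simp
  | cons a v ih =>
    rw [act_cons, mul_smul, List.length_cons]
    have := hC a (act π v • x)
    push_cast
    rw [abs_le] at *
    constructor <;> linarith

/-- Orbits of bounded displacement on the integers have bounded size. -/
theorem orbit_bound (hπ : Function.Surjective π) (ht : IsMulTorsion G)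
    {R : Set (FreeGroup (Fin m))} (hR : Subgroup.normalClosure R = π.ker) {r : ℕ}
    (hlen : ∀ x ∈ R, x.toWord.length ≤ r) (hr : 2 ≤ r) [MulAction G ℤ] {C : ℕ}
    (hC : ∀ (a : Fin m × Bool) (x : ℤ), |act π [a] • x - x| ≤ C) :
    ∃ M, ∀ x : ℤ, ∃ s : Finset ℤ, s.card ≤ M ∧ ∀ g : G, g • x ∈ s := by
  set K := Nat.card (Shape m ((2 * C) * wordCount m r)) + 1 with hK
  obtain ⟨D, hD⟩ : ∃ D, D = (r + 1) * C := ⟨_, rfl⟩
  refine ⟨2 * (K * D) + 1, fun x₀ => ?_⟩
  let P : ℕ → Set ℤ := fun n => Set.Icc (x₀ - (n * D : ℕ)) (x₀ + (n * D : ℕ))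
  let E : ℕ → Set ℤ := fun n => {y | Conn π (P n) x₀ y}
  have hbase : ∀ n, x₀ ∈ P n := fun n => by
    simp only [P, Set.mem_Icc]
    omega
  have hfin : ∀ n, (E n).Finite := fun n => (Set.finite_Icc _ _).subset fun y hy => hy.mem
  have hgap : ∀ n, ∀ y ∈ E n, ∀ z, Near π (r + 1) y z → z ∈ E (n + 1) := by
    rintro n y hy z ⟨u, hu, rfl⟩
    have hy' := hy.mem
    refine conn_trail u (hy.mono (Set.Icc_subset_Icc ?_ ?_)) fun v hv => ?_
    · push_cast; nlinarith [Int.natCast_nonneg D]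
    · push_cast; nlinarith [Int.natCast_nonneg D]
    · have h1 := abs_smul_le hC v y
      have h2 : (v.length : ℤ) * C ≤ D := by
        rw [hD]
        exact_mod_cast Nat.mul_le_mul_right C (hv.length_le.trans hu)
      simp only [P, Set.mem_Icc] at hy' ⊢
      rw [abs_le] at h1
      push_cast at hy' ⊢
      constructor <;> nlinarith
  have hb : ∀ n, {y | Bd π (E n) y}.ncard ≤ 2 * C := by
    intro n
    have hsub : {y | Bd π (E n) y} ⊆
        ↑(Finset.Ico (x₀ - (n * D : ℕ)) (x₀ - (n * D : ℕ) + C) ∪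
          Finset.Ioc (x₀ + (n * D : ℕ) - C) (x₀ + (n * D : ℕ))) := by
      rintro y ⟨hy, a, ha⟩
      have hout : act π [a] • y ∉ P n := fun h => ha (Conn.extend hy a h)
      have hy' := hy.mem
      have h1 := hC a y
      simp only [P, Set.mem_Icc] at hy' hout
      rw [abs_le] at h1
      simp only [Finset.coe_union, Finset.coe_Ico, Finset.coe_Ioc, Set.mem_union, Set.mem_Ico,
        Set.mem_Ioc]
      omega
    refine (Set.ncard_le_ncard hsub (Finset.finite_toSet _)).trans ?_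
    rw [Set.ncard_coe_finset]
    refine (Finset.card_union_le _ _).trans ?_
    simp only [Int.card_Ico, Int.card_Ioc]
    omega
  by_cases hex : ∃ n, n + 1 < K ∧ E (n + 1) = E n
  · obtain ⟨n, hn, heq⟩ := hex
    refine ⟨Finset.Icc (x₀ - (n * D : ℕ)) (x₀ + (n * D : ℕ)), ?_, fun g => ?_⟩
    · rw [Int.card_Icc]
      have : n * D ≤ K * D := Nat.mul_le_mul_right _ (by omega)
      omega
    · have hinv : ∀ x ∈ E n, ∀ a, act π [a] • x ∈ E n := fun x hx a => by
        rw [← heq]
        exact hgap n x hx _ ⟨[a], by simp, rfl⟩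
      have := (smul_mem_of_closed hπ hinv (Conn.base (hbase n)) g).mem
      simpa [P] using this
  · push Not at hex
    exact (no_chain ht hR hlen hr (Nat.lt_succ_self _) E x₀ (fun n _ => (hfin n).subset fun x hx => hx.1)
      (fun n _ => Conn.base (hbase n)) (fun n _ x hx => Conn.self hx) (fun n _ => hb n)
      (fun n _ => hgap n) (fun n hn => hex n hn)).elim

/-- A finitely presented periodic group acts on the integers with bounded displacements only
through finite groups. -/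
theorem finite_range [Group.IsFinitelyPresented G] (ht : IsMulTorsion G)
    (φ : G →* Equiv.Perm ℤ) (hφ : ∀ g, ∃ C : ℕ, ∀ x : ℤ, |φ g x - x| ≤ C) :
    Finite φ.range := by
  classical
  obtain ⟨m, r, π, R, hπ, hR, hlen, hr⟩ := exists_relators G
  let A : MulAction G ℤ := MulAction.compHom ℤ φ
  choose C hC using hφ
  have hC' : ∀ (a : Fin m × Bool) (x : ℤ),
      |act π [a] • x - x| ≤ ((Finset.univ.sup fun a => C (act π [a]) : ℕ) : ℤ) := fun a x =>
    (hC (act π [a]) x).trans (by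
      exact_mod_cast Finset.le_sup (f := fun a => C (act π [a])) (Finset.mem_univ a))
  obtain ⟨M, hM⟩ := orbit_bound hπ ht hR hlen hr hC'
  have hfinHom : Finite (G →* Equiv.Perm (Fin M)) := by
    refine Finite.of_injective (fun (f : G →* Equiv.Perm (Fin M)) i => f (π (FreeGroup.of i))) ?_
    intro f f' h
    have h' : f.comp π = f'.comp π := FreeGroup.ext_hom _ _ fun i => congrFun h i
    refine MonoidHom.ext fun g => ?_
    obtain ⟨t, rfl⟩ := hπ g
    exact DFunLike.congr_fun h' t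
  have sep : ∀ g : G, (∀ f : G →* Equiv.Perm (Fin M), f g = 1) → φ g = 1 := by
    intro g hg
    refine Equiv.ext fun x => ?_
    obtain ⟨s, hs, hmem⟩ := hM x
    have horb : (MulAction.orbit G x).Finite := s.finite_toSet.subset fun y ⟨k, hk⟩ => hk ▸ hmem k
    have := horb.fintype
    obtain ⟨ι⟩ : Nonempty (MulAction.orbit G x ↪ Fin M) := by
      refine Function.Embedding.nonempty_of_card_le ?_
      rw [Fintype.card_fin, ← Nat.card_eq_fintype_card, Nat.card_coe_set_eq]
      refine le_trans (Set.ncard_le_ncard (fun y hy => ?_) s.finite_toSet)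
        ((Set.ncard_coe_finset s).le.trans hs)
      obtain ⟨k, rfl⟩ := hy
      exact hmem k
    have h1 := hg ((Equiv.Perm.viaEmbeddingHom ι).comp
      (MulAction.toPermHom G (MulAction.orbit G x)))
    rw [MonoidHom.comp_apply, ← map_one (Equiv.Perm.viaEmbeddingHom ι)] at h1
    have h2 := Equiv.congr_fun (Equiv.Perm.viaEmbeddingHom_injective ι h1)
      ⟨x, MulAction.mem_orbit_self x⟩
    exact congrArg Subtype.val h2
  let Θ : G →* ((G →* Equiv.Perm (Fin M)) → Equiv.Perm (Fin M)) :=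
    MonoidHom.mk' (fun g f => f g) fun a b => funext fun f => map_mul f a b
  refine Finite.of_injective (fun y : φ.range => Θ (Classical.choose y.2)) ?_
  intro y y' h
  refine Subtype.ext ?_
  rw [← Classical.choose_spec y.2, ← Classical.choose_spec y'.2]
  have := sep ((Classical.choose y'.2)⁻¹ * Classical.choose y.2) fun f => by
    rw [map_mul, map_inv, inv_mul_eq_one]
    exact (congrFun h f).symm
  rw [map_mul, map_inv, inv_mul_eq_one] at this
  exact this.symm

end Vale.Agent.P192.Bottleneck
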