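import Vale.Agent.P192.Bottleneck.Glue

/-!
# P192: finitely many shapes of boundary windows

Among sufficiently many nested connected sets with boundaries of bounded size and large gaps,
two have the same window, so they can be glued.
-/

namespace Vale.Agent.P192.Bottleneck

variable {m : ℕ} {G : Type*} [Group G] {π : FreeGroup (Fin m) →* G} {X : Type*} [MulAction G X]

/-- The shape of a window with at most `N + 1` points. -/
abbrev Shape (m N : ℕ) : Type :=
  Set (Fin (N + 1)) × Set (Fin (N + 1)) × Set (Fin (N + 1) × (Fin m × Bool) × Fin (N + 1))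

/-- The shape of the window of `F` read through `e`. -/
def shapeOf (π : FreeGroup (Fin m) →* G) (r : ℕ) {N : ℕ} (F : Set X) (e : X → Fin (N + 1)) :
    Shape m N :=
  (e '' U π r F, e '' (U π r F ∩ F),
    {q | ∃ z a, z ∈ U π r F ∧ act π [a] • z ∈ U π r F ∧ q = (e z, a, e (act π [a] • z))})

/-- The number of words of length at most `r`. -/
noncomputable def wordCount (m r : ℕ) : ℕ := {u : List (Fin m × Bool) | u.length ≤ r}.ncard

theorem ncard_window {r w : ℕ} {F : Set X} (hbf : {x | Bd π F x}.Finite)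
    (hb : {x | Bd π F x}.ncard ≤ w) :
    (U π r F).Finite ∧ (U π r F).ncard ≤ w * wordCount m r := by
  have hl : {u : List (Fin m × Bool) | u.length ≤ r}.Finite := List.finite_length_le _ r
  have hsub : U π r F ⊆ (fun p : X × List (Fin m × Bool) => act π p.2 • p.1) ''
      ({x | Bd π F x} ×ˢ {u | u.length ≤ r}) := by
    rintro z ⟨b, hb', u, hu, rfl⟩
    exact ⟨(b, u), ⟨hb', hu⟩, rfl⟩
  have hp := hbf.prod hl
  refine ⟨(hp.image _).subset hsub, ?_⟩
  calc (U π r F).ncard ≤ _ := Set.ncard_le_ncard hsub (hp.image _)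
    _ ≤ _ := Set.ncard_image_le hp
    _ = {x | Bd π F x}.ncard * wordCount m r := Set.ncard_prod
    _ ≤ w * wordCount m r := Nat.mul_le_mul_right _ hb

theorem exists_coord {s : Set X} (hs : s.Finite) {N : ℕ} (hN : s.ncard ≤ N) :
    ∃ e : X → Fin (N + 1), Set.InjOn e s := by
  classical
  obtain ⟨f⟩ : Nonempty (s ↪ Fin (N + 1)) := by
    have := hs.fintype
    refine Function.Embedding.nonempty_of_card_le ?_
    rw [Fintype.card_fin, ← Nat.card_eq_fintype_card, Nat.card_coe_set_eq]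
    omega
  refine ⟨fun x => if h : x ∈ s then f ⟨x, h⟩ else 0, fun a ha b hb h => ?_⟩
  simp only [dif_pos ha, dif_pos hb] at h
  exact congrArg Subtype.val (f.injective h)

theorem exists_theta {r N : ℕ} {F F' : Set X} {e e' : X → Fin (N + 1)}
    (he : Set.InjOn e (U π r F)) (he' : Set.InjOn e' (U π r F'))
    (h : shapeOf π r F e = shapeOf π r F' e') :
    ∃ θ : X → X, (∀ z ∈ U π r F, θ z ∈ U π r F' ∧ e' (θ z) = e z) ∧
      (∀ z ∈ U π r F, (z ∈ F ↔ θ z ∈ F')) ∧
      ∀ z a, z ∈ U π r F → act π [a] • z ∈ U π r F → θ (act π [a] • z) = act π [a] • θ z := by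
  classical
  have h1 : e '' U π r F = e' '' U π r F' := congrArg Prod.fst h
  have h2 : e '' (U π r F ∩ F) = e' '' (U π r F' ∩ F') := congrArg (fun q => q.2.1) h
  have h3 := congrArg (fun q => q.2.2) h
  have hex : ∀ z ∈ U π r F, ∃ z' ∈ U π r F', e' z' = e z := fun z hz => by
    have : e z ∈ e' '' U π r F' := h1 ▸ ⟨z, hz, rfl⟩
    exact this
  choose g hg hge using hex
  let θ : X → X := fun z => if hz : z ∈ U π r F then g z hz else z
  have hθ : ∀ z ∈ U π r F, θ z ∈ U π r F' ∧ e' (θ z) = e z := fun z hz => by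
    simp only [θ, dif_pos hz]
    exact ⟨hg z hz, hge z hz⟩
  refine ⟨θ, hθ, fun z hz => ?_, fun z a hz haz => ?_⟩
  · constructor
    · intro hF
      obtain ⟨z', hz', ez⟩ := (h2 ▸ ⟨z, ⟨hz, hF⟩, rfl⟩ : e z ∈ e' '' (U π r F' ∩ F'))
      rw [← he' hz'.1 (hθ z hz).1 (ez.trans (hθ z hz).2.symm)]
      exact hz'.2
    · intro hF
      obtain ⟨z', hz', ez⟩ :=
        (h2.symm ▸ ⟨θ z, ⟨(hθ z hz).1, hF⟩, rfl⟩ : e' (θ z) ∈ e '' (U π r F ∩ F))
      rw [← he hz'.1 hz (ez.trans (hθ z hz).2)]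
      exact hz'.2
  · have hmem : (e z, a, e (act π [a] • z)) ∈ (shapeOf π r F' e').2.2 := by
      rw [← h]
      exact ⟨z, a, hz, haz, rfl⟩
    obtain ⟨z', a', hz', haz', eq⟩ := hmem
    obtain ⟨e1, e2⟩ := Prod.mk.inj eq
    obtain ⟨rfl, e3⟩ := Prod.mk.inj e2
    have : z' = θ z := he' hz' (hθ z hz).1 (e1.symm.trans (hθ z hz).2.symm)
    subst this
    exact he' (hθ _ haz).1 haz' ((hθ _ haz).2.trans e3)

/-- Two cuts with the same shape give a contradiction. -/
theorem same_shape_false (ht : IsMulTorsion G) {R : Set (FreeGroup (Fin m))}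
    (hR : Subgroup.normalClosure R = π.ker) {r N : ℕ} (hlen : ∀ x ∈ R, x.toWord.length ≤ r)
    (hr : 2 ≤ r) {F F' : Set X} {e e' : X → Fin (N + 1)}
    (he : Set.InjOn e (U π r F)) (he' : Set.InjOn e' (U π r F'))
    (h : shapeOf π r F e = shapeOf π r F' e') (hfin : (U π r F).Finite) {x₀ : X} (hx₀ : x₀ ∈ F)
    (hconn : ∀ x ∈ F', Conn π F' x₀ x) (hgap : ∀ y ∈ F, ∀ z, Near π (r + 1) y z → z ∈ F')
    {w₀ : X} (hw₀ : w₀ ∈ F' ∧ w₀ ∉ F) : False := by
  obtain ⟨θ, t1, t2, t3⟩ := exists_theta he he' h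
  obtain ⟨θ', s1, s2, s3⟩ := exists_theta he' he h.symm
  have hθ : Half π r F F' θ θ' := ⟨fun z hz => (t1 z hz).1, fun z hz =>
    he (s1 _ (t1 z hz).1).1 hz ((s1 _ (t1 z hz).1).2.trans (t1 z hz).2), t2, t3⟩
  have hθ' : Half π r F' F θ' θ := ⟨fun z hz => (s1 z hz).1, fun z hz =>
    he' (t1 _ (s1 z hz).1).1 hz ((t1 _ (s1 z hz).1).2.trans (s1 z hz).2), s2, s3⟩
  refine glue_false hθ hθ' ?_ ?_ ht hR hlen hr hfin hx₀ hconn hw₀
  · rintro z ⟨b, ⟨-, a, ha⟩, hn⟩ hz
    exact ha (hgap z hz _ (hn.symm.cons a))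
  · rintro z ⟨b, ⟨hb, -⟩, hn⟩
    exact hgap b hb z (hn.mono (by omega))

/-- There is no long chain of cuts of bounded boundary. -/
theorem no_chain (ht : IsMulTorsion G) {R : Set (FreeGroup (Fin m))}
    (hR : Subgroup.normalClosure R = π.ker) {r w : ℕ} (hlen : ∀ x ∈ R, x.toWord.length ≤ r)
    (hr : 2 ≤ r) {K : ℕ} (hK : Nat.card (Shape m (w * wordCount m r)) < K) (C : ℕ → Set X)
    (x₀ : X) (hfin : ∀ n < K, {x | Bd π (C n) x}.Finite) (hx : ∀ n < K, x₀ ∈ C n)
    (hconn : ∀ n < K, ∀ x ∈ C n, Conn π (C n) x₀ x)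
    (hb : ∀ n < K, {x | Bd π (C n) x}.ncard ≤ w)
    (hgap : ∀ n, n + 1 < K → ∀ y ∈ C n, ∀ z, Near π (r + 1) y z → z ∈ C (n + 1))
    (hne : ∀ n, n + 1 < K → C (n + 1) ≠ C n) : False := by
  have hcoord : ∀ n : Fin K, ∃ e : X → Fin (w * wordCount m r + 1),
      Set.InjOn e (U π r (C n)) := fun n => by
    obtain ⟨h1, h2⟩ := ncard_window (r := r) (hfin n n.2) (hb n n.2)
    exact exists_coord h1 h2
  choose e he using hcoord
  obtain ⟨i, j, hij, hs⟩ := Fintype.exists_ne_map_eq_of_card_lt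
    (fun n : Fin K => shapeOf π r (C n) (e n))
    (by rw [Fintype.card_fin, ← Nat.card_eq_fintype_card]; exact hK)
  wlog hlt : i < j generalizing i j
  · exact this j i hij.symm hs.symm (lt_of_le_of_ne (not_lt.mp hlt) hij.symm)
  have sub : ∀ n, n + 1 < K → C n ⊆ C (n + 1) := fun n hn y hy =>
    hgap n hn y hy y (Near.refl _ _)
  have mono : ∀ a b, a ≤ b → b < K → C a ⊆ C b := by
    intro a b hab
    induction hab with
    | refl => exact fun _ => subset_rfl
    | @step b hab ih => exact fun hb => (ih (by omega)).trans (sub b hb)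
  have hij' : (i : ℕ) + 1 ≤ j := hlt
  have h1 : C ((i : ℕ) + 1) ⊆ C j := mono _ _ hij' j.2
  have hi1 : (i : ℕ) + 1 < K := by omega
  obtain ⟨w₀, hw₀⟩ : ∃ w₀, w₀ ∈ C j ∧ w₀ ∉ C i := by
    by_contra hc
    push Not at hc
    exact hne i hi1 (Set.Subset.antisymm (fun y hy => hc y (h1 hy)) (sub i hi1))
  exact same_shape_false ht hR hlen hr (he i) (he j) hs (ncard_window (hfin i i.2) (hb i i.2)).1 (hx i i.2) (hconn j j.2)
    (fun y hy z hz => h1 (hgap i hi1 y hy z hz)) hw₀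

end Vale.Agent.P192.Bottleneck
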